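import Vale.Agent.P039.Defs

/-! Definitions for the square-switch theorem. -/

namespace Vale.Agent.P039.Sw

open Vale.Agent.P039

variable {V : Type*}

/-- For an edge `u v` of `G`: it lies on a cycle `u v x y` of length four. -/
def OnSquare (G : SimpleGraph V) (u v : V) : Prop :=
  ∃ x y, G.Adj v x ∧ G.Adj x y ∧ G.Adj y u ∧ u ≠ x ∧ v ≠ y

/-- `M` is a perfect matching of `G`. -/
def PerfectMatching (G M : SimpleGraph V) : Prop :=
  M ≤ G ∧ ∀ v, ∃! w, M.Adj v w

/-- `G` without the edges of `M` that lie on no 4-cycle of `G`. -/
def offSquares (G M : SimpleGraph V) : SimpleGraph V where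
  Adj u v := G.Adj u v ∧ (M.Adj u v → OnSquare G u v)
  symm := ⟨by
    rintro u v ⟨h1, h2⟩
    refine ⟨h1.symm, fun h => ?_⟩
    obtain ⟨x, y, a, b, c, d, e⟩ := h2 h.symm
    exact ⟨y, x, c.symm, b.symm, a.symm, e, d⟩⟩
  loopless := ⟨fun v h => G.loopless.irrefl v h.1⟩

variable {G : SimpleGraph V}

/-- The face on the left of a dart. -/
def side (R : Rotation G) (d : G.Dart) : R.Face :=
  Quotient.mk (Equiv.Perm.SameCycle.setoid R.facePerm) d

/-- The size of a face: the number of darts on its boundary. -/
noncomputable def size (R : Rotation G) (f : R.Face) : ℕ :=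
  {d : G.Dart | side R d = f}.ncard

/-- The vertex `v` lies on the face `f`. -/
def OnFace (R : Rotation G) (v : V) (f : R.Face) : Prop :=
  ∃ d : G.Dart, d.fst = v ∧ side R d = f

/-- The two different faces `f` and `g`, neither of size four, share an edge. -/
def BigAdj (R : Rotation G) (f g : R.Face) : Prop :=
  f ≠ g ∧ size R f ≠ 4 ∧ size R g ≠ 4 ∧ ∃ d : G.Dart, side R d = f ∧ side R d.symm = g

theorem BigAdj.symm {R : Rotation G} {f g : R.Face} (h : BigAdj R f g) : BigAdj R g f := by
  obtain ⟨h1, h2, h3, d, h4, h5⟩ := h
  exact ⟨h1.symm, h3, h2, d.symm, h5, by rw [SimpleGraph.Dart.symm_symm]; exact h4⟩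

/-- The faces, two of them joined if neither has size four, they share an edge, and both or
neither of them belong to `S`. -/
def mono (R : Rotation G) (S : Set R.Face) : SimpleGraph R.Face where
  Adj f g := BigAdj R f g ∧ (f ∈ S ↔ g ∈ S)
  symm := ⟨fun _ _ h => ⟨h.1.symm, h.2.symm⟩⟩
  loopless := ⟨fun _ h => h.1.1 rfl⟩

/-- A proper colouring of the faces with three colours: the two sides of an edge get different
colours. -/
def Proper (R : Rotation G) (c : R.Face → Fin 3) : Prop :=
  ∀ d : G.Dart, c (side R d) ≠ c (side R d.symm)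

/-- The faces of colour `i`, not of size four, that share an edge with `f`, if `f` is not of size
four. -/
def bigNbrs (R : Rotation G) (c : R.Face → Fin 3) (i : Fin 3) (f : R.Face) : Set R.Face :=
  {g | BigAdj R f g ∧ c g = i}

/-- The face across the `n`-th edge that follows `d` on the boundary of the face left of `d`. -/
def across (R : Rotation G) (d : G.Dart) (n : ℕ) : R.Face :=
  side R ((R.facePerm ^ n) d).symm

/-- Exactly four edges of the face `f` lead to faces which are not of size four, and going round
`f`, the colours of these four faces alternate. -/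
def Alternating (R : Rotation G) (c : R.Face → Fin 3) (f : R.Face) : Prop :=
  ∃ (d : G.Dart) (i j k : ℕ), side R d = f ∧ 0 < i ∧ i < j ∧ j < k ∧ k < size R f ∧
    (∀ n < size R f, size R (across R d n) ≠ 4 ↔ n = 0 ∨ n = i ∨ n = j ∨ n = k) ∧
    c (across R d 0) ≠ c (across R d i) ∧ c (across R d i) ≠ c (across R d j) ∧
    c (across R d j) ≠ c (across R d k)

/-- For one of the two colours that `f` does not have, at most one face of that colour and of size
other than four shares an edge with `f`; or `f` is alternating. -/
def Simple (R : Rotation G) (c : R.Face → Fin 3) (f : R.Face) : Prop :=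
  (∃ i, i ≠ c f ∧ (bigNbrs R c i f).ncard ≤ 1) ∨ Alternating R c f

/-- The graph on the faces in which a face `f` of colour `0` which is neither of size four nor
simple is joined to all adjacent faces of colour `1`, if `f` is red, and of colour `2`, if `f` is
not red, that are not of size four. -/
def stars (R : Rotation G) (c : R.Face → Fin 3) (red : Set R.Face) : SimpleGraph R.Face :=
  SimpleGraph.fromRel fun f g => c f = 0 ∧ ¬ Simple R c f ∧ BigAdj R f g ∧
    (f ∈ red ∧ c g = 1 ∨ f ∉ red ∧ c g = 2)

end Vale.Agent.P039.Sw
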