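import Vale.Agent.P039.H753.S.Base
import Vale.Agent.P039.Cmb.W1

/-! Three-connected cubic plane graphs: the dual has no loops and no multiple edges. -/

namespace Vale.Agent.P039.Sw

open Vale.Agent.P039
open SimpleGraph

variable {V : Type*} {G : SimpleGraph V}

theorem const_induce (S : Set V) (hS : (G.induce S).Preconnected) {α : Type*} (x : V → α)
    (h : ∀ d : G.Dart, d.fst ∈ S → d.snd ∈ S → x d.fst = x d.snd) :
    ∀ a ∈ S, ∀ b ∈ S, x a = x b := by
  intro a ha b hb
  obtain ⟨w⟩ := hS ⟨a, ha⟩ ⟨b, hb⟩
  have : ∀ (u v : S) (_ : (G.induce S).Walk u v), x u = x v := by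
    intro u v w
    induction w with
    | nil => rfl
    | @cons u v' v hh p ih =>
      rw [← ih]
      have hadj : G.Adj u v' := hh
      exact h ⟨(u, v'), hadj⟩ u.2 v'.2
  exact this _ _ w

theorem same_class_nbr (hcub : ∀ v, (G.neighborSet v).ncard = 3) (x : V → ZMod 2)
    (d1 d2 : G.Dart)
    (h : ∀ e : G.Dart, x e.fst ≠ x e.snd → edgeOf e = edgeOf d1 ∨ edgeOf e = edgeOf d2) (p : V) :
    ∃ r, r ≠ p ∧ x r = x p := by
  classical
  by_contra hcon
  push Not at hcon
  have hsub : G.neighborSet p ⊆
      ({(if d1.fst = p then d1.snd else d1.fst), (if d2.fst = p then d2.snd else d2.fst)} :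
        Set V) := by
    intro r hr
    have hadj : G.Adj p r := hr
    have hne : x p ≠ x r := fun h' => hcon r hadj.ne' h'.symm
    rcases h ⟨(p, r), hadj⟩ hne with h1 | h1
    · left
      rcases (edgeOf_eq_iff _ _).1 h1 with h2 | h2
      · rw [← h2]; simp
      · have h3 : d1 = (⟨(p, r), hadj⟩ : G.Dart).symm := by
          rw [h2, SimpleGraph.Dart.symm_symm]
        rw [h3]
        simp [SimpleGraph.Dart.symm, hadj.ne']
    · right
      rcases (edgeOf_eq_iff _ _).1 h1 with h2 | h2
      · rw [← h2]; simp
      · have h3 : d2 = (⟨(p, r), hadj⟩ : G.Dart).symm := by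
          rw [h2, SimpleGraph.Dart.symm_symm]
        rw [h3]
        simp [SimpleGraph.Dart.symm, hadj.ne']
  have h1 := Set.ncard_le_ncard hsub (Set.toFinite _)
  rw [hcub p] at h1
  have h2 := Set.ncard_insert_le (if d1.fst = p then d1.snd else d1.fst)
    {(if d2.fst = p then d2.snd else d2.fst)}
  rw [Set.ncard_singleton] at h2
  omega

theorem small_cut (hcub : ∀ v, (G.neighborSet v).ncard = 3) (h3 : ThreeConnected G)
    (x : V → ZMod 2) (d1 d2 : G.Dart)
    (h : ∀ e : G.Dart, x e.fst ≠ x e.snd → edgeOf e = edgeOf d1 ∨ edgeOf e = edgeOf d2)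
    (a b : V) : x a = x b := by
  classical
  by_contra hab
  obtain ⟨p, hpa, hp1⟩ : ∃ p, x p = x a ∧ (x d1.fst ≠ x d1.snd → p = d1.fst ∨ p = d1.snd) := by
    by_cases h1 : x d1.fst = x a
    · exact ⟨d1.fst, h1, fun _ => Or.inl rfl⟩
    · by_cases h2 : x d1.snd = x a
      · exact ⟨d1.snd, h2, fun _ => Or.inr rfl⟩
      · refine ⟨a, rfl, fun h' => ?_⟩
        exfalso
        revert h1 h2 h'
        generalize x d1.fst = s; generalize x d1.snd = t; generalize x a = u
        revert s t u; decide
  obtain ⟨q, hqb, hq1⟩ : ∃ p, x p = x b ∧ (x d2.fst ≠ x d2.snd → p = d2.fst ∨ p = d2.snd) := by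
    by_cases h1 : x d2.fst = x b
    · exact ⟨d2.fst, h1, fun _ => Or.inl rfl⟩
    · by_cases h2 : x d2.snd = x b
      · exact ⟨d2.snd, h2, fun _ => Or.inr rfl⟩
      · refine ⟨b, rfl, fun h' => ?_⟩
        exfalso
        revert h1 h2 h'
        generalize x d2.fst = s; generalize x d2.snd = t; generalize x b = u
        revert s t u; decide
  obtain ⟨r, hrp, hr⟩ := same_class_nbr hcub x d1 d2 h p
  obtain ⟨t, htq, ht⟩ := same_class_nbr hcub x d1 d2 h q
  have hpq : p ≠ q := by intro h'; rw [h'] at hpa; exact hab (hpa.symm.trans hqb)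
  have hrq : r ≠ q := by
    intro h'; rw [h', hqb] at hr; exact hab ((hr.trans hpa).symm)
  have htp : t ≠ p := by
    intro h'; rw [h', hpa] at ht; exact hab (ht.trans hqb)
  have hconn := h3.2 {p, q} (Finset.card_le_two)
  have hconst := const_induce (G := G) {v | v ∉ ({p, q} : Finset V)} hconn.preconnected x
    (fun e he1 he2 => by
      by_contra hne
      simp only [Finset.mem_insert, Finset.mem_singleton, not_or, Set.mem_ofPred_eq] at he1 he2
      rcases h e hne with h1 | h1
      · rcases (edgeOf_eq_iff _ _).1 h1 with h2 | h2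
        · rw [h2] at hne he1 he2
          rcases hp1 hne with h5 | h5
          · exact he1.1 h5.symm
          · exact he2.1 h5.symm
        · rw [h2] at hne he1 he2
          have hne' : x d1.fst ≠ x d1.snd := fun h' => hne h'.symm
          rcases hp1 hne' with h5 | h5
          · exact he2.1 h5.symm
          · exact he1.1 h5.symm
      · rcases (edgeOf_eq_iff _ _).1 h1 with h2 | h2
        · rw [h2] at hne he1 he2
          rcases hq1 hne with h5 | h5
          · exact he1.2 h5.symm
          · exact he2.2 h5.symm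
        · rw [h2] at hne he1 he2
          have hne' : x d2.fst ≠ x d2.snd := fun h' => hne h'.symm
          rcases hq1 hne' with h5 | h5
          · exact he2.2 h5.symm
          · exact he1.2 h5.symm)
  have h9 := hconst r (by simp only [Finset.mem_insert, Finset.mem_singleton, not_or,
    Set.mem_ofPred_eq, hrp, not_false_eq_true, hrq, and_self]) t (by simp [htp, htq])
  rw [hr, ht, hpa, hqb] at h9
  exact hab h9

theorem preconnected_three (h3 : ThreeConnected G) : G.Preconnected := by
  have h := (h3.2 ∅ (by simp)).preconnected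
  intro u v
  have hw := h ⟨u, by simp⟩ ⟨v, by simp⟩
  exact hw.map (SimpleGraph.Embedding.induce _).toHom

theorem connected_three (h3 : ThreeConnected G) : G.Connected := by
  haveI : Nonempty V := by
    obtain ⟨v⟩ := (h3.2 ∅ (by simp)).nonempty
    exact ⟨v.1⟩
  exact ⟨preconnected_three h3⟩

section Finite

variable [Fintype V] (R : Rotation G)

/-- In a 3-connected cubic plane graph, two distinct edges never lie between the same two faces. -/
theorem dual_simple' (hcub : ∀ v, (G.neighborSet v).ncard = 3) (h3 : ThreeConnected G)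
    (hE : Fintype.card V + Fintype.card R.Face = Fintype.card G.edgeSet + 2)
    (d e : G.Dart) (h1 : R.faceOf d = R.faceOf e) (h2 : R.faceOf d.symm = R.faceOf e.symm) :
    edgeOf d = edgeOf e := by
  classical
  by_contra hne
  have hG := preconnected_three h3
  obtain ⟨x, hx⟩ := exists_cut R hG hE (unitVec (edgeOf d) + unitVec (edgeOf e)) (by
    rw [Matrix.mulVec_add, faceMat_unitVec, faceMat_unitVec, h1, h2]
    funext f; exact zmod2_add_self _)
  have hc := small_cut hcub h3 x d e (by
    intro g hg
    by_contra hcon2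
    push Not at hcon2
    have := hx g
    rw [Pi.add_apply, unitVec_ne hcon2.1, unitVec_ne hcon2.2, add_zero] at this
    apply hg
    have h5 := zmod2_add_self (x g.snd)
    exact add_right_cancel (this.symm.trans h5.symm)) d.fst d.snd
  have := hx d
  rw [Pi.add_apply, unitVec_self, unitVec_ne hne, hc, zmod2_add_self, add_zero] at this
  exact absurd this (by decide)

/-- The two sides of an edge are different faces. -/
theorem sides_ne (hcub : ∀ v, (G.neighborSet v).ncard = 3) (h3 : ThreeConnected G)
    (hE : Fintype.card V + Fintype.card R.Face = Fintype.card G.edgeSet + 2)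
    (d : G.Dart) : R.faceOf d ≠ R.faceOf d.symm := by
  classical
  intro h1
  have hG := preconnected_three h3
  obtain ⟨x, hx⟩ := exists_cut R hG hE (unitVec (edgeOf d)) (by
    rw [faceMat_unitVec, h1]
    funext f; exact zmod2_add_self _)
  have hc := small_cut hcub h3 x d d (by
    intro g hg
    by_contra hcon2
    push Not at hcon2
    have := hx g
    rw [unitVec_ne hcon2.1] at this
    apply hg
    have h5 := zmod2_add_self (x g.snd)
    exact add_right_cancel (this.symm.trans h5.symm)) d.fst d.snd
  have := hx d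
  rw [unitVec_self, hc, zmod2_add_self] at this
  exact absurd this (by decide)

end Finite

/-! Cycles of permutations. -/

theorem cycle_eq_image {α : Type*} [Finite α] (σ : Equiv.Perm α) (d : α) :
    {e | σ.SameCycle d e} = (fun n => σ^[n] d) '' Set.Iio (Function.minimalPeriod σ d) := by
  ext e
  constructor
  · intro h
    obtain ⟨n, hn⟩ := Equiv.Perm.SameCycle.exists_nat_pow_eq h
    have hp : 0 < Function.minimalPeriod σ d := by
      apply Function.minimalPeriod_pos_of_mem_periodicPts
      have := (isOfFinOrder_of_finite σ)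
      obtain ⟨k, hk, hk2⟩ := isOfFinOrder_iff_pow_eq_one.1 this
      refine ⟨k, hk, ?_⟩
      change σ^[k] d = d
      rw [Equiv.Perm.iterate_eq_pow, hk2]; rfl
    refine ⟨n % Function.minimalPeriod σ d, Nat.mod_lt _ hp, ?_⟩
    change σ^[n % Function.minimalPeriod σ d] d = e
    rw [Function.iterate_mod_minimalPeriod_eq, Equiv.Perm.iterate_eq_pow]
    exact hn
  · rintro ⟨n, -, rfl⟩
    refine ⟨(n : ℤ), ?_⟩
    change (σ ^ (n : ℤ)) d = σ^[n] d
    rw [zpow_natCast, Equiv.Perm.iterate_eq_pow]

theorem cycle_ncard {α : Type*} [Finite α] (σ : Equiv.Perm α) (d : α) :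
    {e | σ.SameCycle d e}.ncard = Function.minimalPeriod σ d := by
  rw [cycle_eq_image, Set.InjOn.ncard_image]
  · rw [Set.ncard_eq_toFinset_card', Set.toFinset_Iio, Nat.card_Iio]
  · exact Function.iterate_injOn_Iio_minimalPeriod

end Vale.Agent.P039.Sw
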