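import Vale.Agent.P039.H753.S.Core

/-! Graphs with an acyclic star graph are Hamiltonian. -/

namespace Vale.Agent.P039.Sw

open Vale.Agent.P039
open SimpleGraph

variable {V : Type*} {G : SimpleGraph V}

theorem ham_of_stars [Fintype V] [DecidableEq V] (R : Rotation G)
    (hcub : ∀ v, (G.neighborSet v).ncard = 3) (h3 : ThreeConnected G)
    (hE : Fintype.card V + Fintype.card R.Face = Fintype.card G.edgeSet + 2)
    {c : R.Face → Fin 3} (hc : Proper R c) (red : Set R.Face)
    (hac : (stars R c red).IsAcyclic) : G.IsHamiltonian := by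
  classical
  -- a maximal family
  obtain ⟨D, hD⟩ : ∃ D, Maximal (fun D => D ⊆ alts R c ∧ (forestG R c red D).IsAcyclic) D := by
    have hfin : {D : Set R.Face | D ⊆ alts R c ∧ (forestG R c red D).IsAcyclic}.Finite :=
      Set.toFinite _
    exact hfin.exists_maximal ⟨∅, Set.empty_subset _, hac.anti forestG_empty_le⟩
  refine ham_of_forall R hcub h3 hE (inS R c red D) ?_ ?_
  · intro v
    obtain ⟨f, hf, hv⟩ := exists_colour R hcub hc v 1
    obtain ⟨g, hg, hw⟩ := exists_colour R hcub hc v 2
    refine ⟨⟨f, Or.inl hf, hv⟩, g, ?_, hw⟩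
    rintro (h | h | h)
    · rw [hg] at h; exact absurd h (by decide)
    · rw [hg] at h; exact absurd h.1 (by decide)
    · have := h.1
      rw [hg] at this; exact absurd this (by decide)
  intro x hx
  have hcolS : ∀ f, f ∈ inS R c red D → c f = 0 ∨ c f = 1 := by
    rintro f (h | h | h)
    · exact Or.inr h
    · exact Or.inl h.1
    · exact Or.inl h.1
  -- colour 0 faces in `S`
  have h0S : ∀ d : G.Dart, x d.fst ≠ x d.snd → c (side R d) = 0 →
      side R d ∈ inS R c red D → Hot R c red D (side R d) ∧ c (side R d.symm) = 1 := by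
    intro d hd h0 hS
    have hcol : ∀ e : G.Dart, side R e = side R d → x e.fst ≠ x e.snd →
        BigAdj R (side R e) (side R e.symm) ∧ c (side R e.symm) = 1 := by
      intro e he hxe
      have h := hx e hxe
      refine ⟨h.1, ?_⟩
      rcases hcolS _ (h.2.1 (by rw [he]; exact hS)) with h' | h'
      · have := hc e
        rw [he, h0, h'] at this
        exact absurd rfl this
      · exact h'
    refine ⟨?_, (hcol d rfl hd).2⟩
    rcases hS with h | h | h
    · rw [h0] at h; exact absurd h (by decide)
    · exact absurd h.2.2 (not_ncard_le_one R hcub h3 hE c 1 x d hd hcol)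
    · exact h
  -- no change inside `S`
  have hnoS : ∀ d : G.Dart, x d.fst ≠ x d.snd →
      side R d ∉ inS R c red D ∧ side R d.symm ∉ inS R c red D := by
    have hstep : ∀ d : G.Dart, x d.fst ≠ x d.snd →
        (forestG R c red D).Adj (side R d) (side R d.symm) ∨
          (side R d ∉ inS R c red D ∧ side R d.symm ∉ inS R c red D) := by
      intro d hd
      have h := hx d hd
      by_cases hS : side R d ∈ inS R c red D
      · left
        unfold forestG
        rw [fromRel_adj]
        refine ⟨h.1.1, ?_⟩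
        rcases hcolS _ hS with h0 | h1
        · have h2 := h0S d hd h0 hS
          exact Or.inl ⟨h2.1, h.1, h2.2⟩
        · have hS' := h.2.1 hS
          have h0 : c (side R d.symm) = 0 := by
            rcases hcolS _ hS' with h0 | h2
            · exact h0
            · have := hc d
              rw [h1, h2] at this
              exact absurd rfl this
          have h2 := h0S d.symm (Ne.symm hd) h0 hS'
          exact Or.inr ⟨h2.1, h.1.symm, h1⟩
      · exact Or.inr ⟨hS, fun h' => hS (h.2.2 h')⟩
    intro d hd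
    rcases hstep d hd with h | h
    · exact absurd h (kill R hcub h3 hE _ hD.prop.2 (inS R c red D)
        (fun f g hfg => forestG_mem hfg) x hstep d hd)
    · exact h
  -- the remaining changes are in the star graph
  have hstar0 : ∀ d : G.Dart, x d.fst ≠ x d.snd → c (side R d) = 0 →
      ¬ Simple R c (side R d) ∧ side R d ∉ red ∧ c (side R d.symm) = 2 := by
    intro d hd h0
    have hcol : ∀ e : G.Dart, side R e = side R d → x e.fst ≠ x e.snd →
        BigAdj R (side R e) (side R e.symm) ∧ c (side R e.symm) = 2 := by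
      intro e he hxe
      have h := hnoS e hxe
      refine ⟨(hx e hxe).1, ?_⟩
      have h1 : c (side R e.symm) ≠ 1 := fun h' => h.2 (Or.inl h')
      have h2 : c (side R e.symm) ≠ 0 := by
        intro h'
        have := hc e
        rw [he, h0, h'] at this
        exact this rfl
      revert h1 h2
      generalize c (side R e.symm) = y
      revert y; decide
    have hS := (hnoS d hd).1
    have hp : ¬ (bigNbrs R c 1 (side R d)).ncard ≤ 1 := fun h => hS (Or.inr (Or.inl ⟨h0, h0, h⟩))
    have hq : ¬ (bigNbrs R c 2 (side R d)).ncard ≤ 1 :=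
      not_ncard_le_one R hcub h3 hE c 2 x d hd hcol
    have hsimple : ¬ Simple R c (side R d) := by
      rintro (⟨i, hi, hle⟩ | halt)
      · have : i = 1 ∨ i = 2 := by
          rw [h0] at hi
          revert hi
          clear hle
          revert i; decide
        rcases this with rfl | rfl
        · exact hp hle
        · exact hq hle
      · have hu : side R d ∈ alts R c := ⟨h0, hp, hq, halt⟩
        have huD : side R d ∉ D := fun h => hS (Or.inr (Or.inr ⟨h0, Or.inr h⟩))
        exact alt_contra R hcub h3 hE hc red D hD x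
          (fun e he => ⟨(hx e he).1, hnoS e he⟩) hu huD d hd rfl
    refine ⟨hsimple, fun h => ?_, (hcol d rfl hd).2⟩
    exact hS (Or.inr (Or.inr ⟨h0, Or.inl ⟨hsimple, h⟩⟩))
  have hstar : ∀ d : G.Dart, x d.fst ≠ x d.snd →
      (stars R c red).Adj (side R d) (side R d.symm) := by
    intro d hd
    have h := hx d hd
    unfold stars
    rw [fromRel_adj]
    refine ⟨h.1.1, ?_⟩
    have hn := hnoS d hd
    have h1 : c (side R d) ≠ 1 := fun h' => hn.1 (Or.inl h')
    have h2 : c (side R d.symm) ≠ 1 := fun h' => hn.2 (Or.inl h')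
    have h4 := hc d
    have : c (side R d) = 0 ∨ c (side R d.symm) = 0 := by
      revert h1 h2 h4
      generalize c (side R d) = y
      generalize c (side R d.symm) = z
      revert y z; decide
    rcases this with h0 | h0
    · have h5 := hstar0 d hd h0
      exact Or.inl ⟨h0, h5.1, h.1, Or.inr ⟨h5.2.1, h5.2.2⟩⟩
    · have h5 := hstar0 d.symm (Ne.symm hd) h0
      rw [SimpleGraph.Dart.symm_symm] at h5
      exact Or.inr ⟨h0, h5.1, h.1.symm, Or.inr ⟨h5.2.1, h5.2.2⟩⟩
  intro d
  by_contra hd
  exact kill R hcub h3 hE _ hac Set.univ (fun _ _ _ => Set.mem_univ _) x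
    (fun e he => Or.inl (hstar e he)) d hd (hstar d hd)

/-- A graph in which each edge has an end with no other neighbour has no cycle. -/
theorem acyclic_of_pendant {α : Type*} (H : SimpleGraph α)
    (h : ∀ a b, H.Adj a b → (∀ e, H.Adj a e → e = b) ∨ ∀ e, H.Adj b e → e = a) :
    H.IsAcyclic := by
  rw [isAcyclic_iff_forall_adj_isBridge]
  intro a b hab
  rw [isBridge_iff]
  intro hr
  have key : ∀ a b, H.Adj a b → (∀ e, H.Adj a e → e = b) →
      ¬ (H \ fromEdgeSet {s(a, b)}).Reachable a b := by
    intro a b hab h1 hr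
    rw [reachable_iff_reflTransGen] at hr
    rcases hr.cases_head with h2 | ⟨e, he, -⟩
    · exact hab.ne h2
    · rw [sdiff_adj, fromEdgeSet_adj, Set.mem_singleton_iff] at he
      apply he.2
      rw [h1 e he.1]
      exact ⟨rfl, hab.ne⟩
  rcases h a b hab with h1 | h1
  · exact key a b hab h1 hr
  · apply key b a hab.symm h1
    rw [Sym2.eq_swap]
    exact hr.symm

/-- At most two complex faces in the class of colour 0. -/
theorem ham_of_two [Fintype V] [DecidableEq V] (R : Rotation G)
    (hcub : ∀ v, (G.neighborSet v).ncard = 3) (h3 : ThreeConnected G)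
    (hE : Fintype.card V + Fintype.card R.Face = Fintype.card G.edgeSet + 2)
    {c : R.Face → Fin 3} (hc : Proper R c)
    (h2 : {f | c f = 0 ∧ size R f ≠ 4 ∧ ¬ Simple R c f}.ncard ≤ 2) : G.IsHamiltonian := by
  classical
  set A := {f | c f = 0 ∧ size R f ≠ 4 ∧ ¬ Simple R c f} with hA
  obtain ⟨red, hred1, hred2⟩ : ∃ red : Set R.Face, (∀ f ∈ A, ∀ g ∈ A, f ∈ red → g ∈ red → f = g) ∧
      ∀ f ∈ A, ∀ g ∈ A, f ∉ red → g ∉ red → f = g := by
    rcases Set.eq_empty_or_nonempty A with he | ⟨a, ha⟩
    · refine ⟨∅, ?_, ?_⟩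
      · intro f hf; rw [he] at hf; exact absurd hf (Set.notMem_empty _)
      · intro f hf; rw [he] at hf; exact absurd hf (Set.notMem_empty _)
    · refine ⟨{a}, ?_, ?_⟩
      · intro f _ g _ h1 h4
        rw [Set.mem_singleton_iff] at h1 h4
        rw [h1, h4]
      · intro f hf g hg h1 h4
        rw [Set.mem_singleton_iff] at h1 h4
        have h5 : (A \ {a}).ncard ≤ 1 := by
          rw [Set.ncard_sdiff_singleton_of_mem ha]; omega
        rw [Set.ncard_le_one_iff (Set.toFinite _)] at h5
        exact h5 ⟨hf, h1⟩ ⟨hg, h4⟩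
  refine ham_of_stars R hcub h3 hE hc red (acyclic_of_pendant _ ?_)
  have key : ∀ f g, c f = 0 → ¬ Simple R c f → BigAdj R f g →
      (f ∈ red ∧ c g = 1 ∨ f ∉ red ∧ c g = 2) → ∀ e, (stars R c red).Adj g e → e = f := by
    intro f g h0 hs hb hfg e he
    have hg0 : c g ≠ 0 := by
      rcases hfg with h | h <;> rw [h.2] <;> decide
    unfold stars at he
    rw [fromRel_adj] at he
    rcases he.2 with h | h
    · exact absurd h.1 hg0
    · have hfA : f ∈ A := ⟨h0, hb.2.1, hs⟩
      have heA : e ∈ A := ⟨h.1, h.2.2.1.2.1, h.2.1⟩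
      rcases hfg with ⟨g1, g2⟩ | ⟨g1, g2⟩ <;> rcases h.2.2.2 with ⟨g3, g4⟩ | ⟨g3, g4⟩
      · exact hred1 _ heA _ hfA g3 g1
      · rw [g2] at g4; exact absurd g4 (by decide)
      · rw [g2] at g4; exact absurd g4 (by decide)
      · exact hred2 _ heA _ hfA g3 g1
  intro a b hab
  have hab' := hab
  unfold stars at hab'
  rw [fromRel_adj] at hab'
  rcases hab'.2 with ⟨h0, hs, hb, hfg⟩ | ⟨h0, hs, hb, hfg⟩
  · exact Or.inr (key a b h0 hs hb hfg)
  · exact Or.inl (key b a h0 hs hb hfg)

end Vale.Agent.P039.Sw
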