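import Vale.Agent.P039.H753.S.Switch

namespace Vale.Agent.P039.Sw

open SimpleGraph

variable {V : Type*} {G : SimpleGraph V}

theorem ham_of_offSquares [Fintype V] [DecidableEq V] (hc : ∀ v, (G.neighborSet v).ncard = 3)
    (M : SimpleGraph V) (hM : PerfectMatching G M) (h : (offSquares G M).Connected) :
    G.IsHamiltonian := by
  choose m hm1 hm2 using hM.2
  have hmm : ∀ v, m (m v) = v := by
    intro v
    exact (hm2 (m v) v (hm1 v).symm).symm
  refine ham_of_rest hc _ m hmm (fun v => hM.1 (hm1 v)) rfl ?_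
  have : offSquares G M = rest G m hmm := by
    ext u v
    constructor
    · rintro ⟨h1, h2⟩
      refine ⟨h1, fun e => h2 ?_⟩
      rw [← e]; exact hm1 u
    · rintro ⟨h1, h2⟩
      exact ⟨h1, fun e => h2 (hm2 u v e).symm⟩
  rw [← this]; exact h

theorem matching_of_ham [Fintype V] [DecidableEq V] (hc : ∀ v, (G.neighborSet v).ncard = 3)
    (h : G.IsHamiltonian) : ∃ M, PerfectMatching G M ∧ (offSquares G M).Connected := by
  have h1 : Fintype.card V ≠ 1 := by
    intro h1
    obtain ⟨v, hv⟩ := Fintype.card_eq_one_iff.1 h1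
    have h3 := hc v
    have h4 : G.neighborSet v = ∅ := by
      ext w
      simp only [mem_neighborSet, Set.mem_empty_iff_false, iff_false]
      intro hw
      exact hw.ne (hv w).symm
    rw [h4, Set.ncard_empty] at h3
    exact absurd h3 (by decide)
  obtain ⟨a, p, hp⟩ := h h1
  have hcyc : p.IsCycle := hp.isCycle
  have hmem : ∀ v, v ∈ p.toSubgraph.verts := by
    intro v
    rw [Walk.mem_verts_toSubgraph]
    exact hp.mem_support v
  let M : SimpleGraph V :=
    { Adj := fun u v => G.Adj u v ∧ ¬ p.toSubgraph.Adj u v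
      symm := ⟨fun u v h => ⟨h.1.symm, fun h' => h.2 h'.symm⟩⟩
      loopless := ⟨fun v h => G.loopless.irrefl v h.1⟩ }
  refine ⟨M, ⟨fun u v h => h.1, fun v => ?_⟩, ?_⟩
  · have h2 : (p.toSubgraph.neighborSet v).ncard = 2 :=
      hcyc.ncard_neighborSet_toSubgraph_eq_two (hp.mem_support v)
    have h3 : M.neighborSet v = G.neighborSet v \ p.toSubgraph.neighborSet v := by
      ext w; rfl
    have h4 : (M.neighborSet v).ncard = 1 := by
      rw [h3, Set.ncard_sdiff (p.toSubgraph.neighborSet_subset v), hc, h2]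
    obtain ⟨w, hw⟩ := Set.ncard_eq_one.1 h4
    refine ⟨w, ?_, ?_⟩
    · have : w ∈ M.neighborSet v := by rw [hw]; rfl
      exact this
    · intro y hy
      have : y ∈ M.neighborSet v := hy
      rw [hw] at this
      exact this
  · have hle : ∀ u v, p.toSubgraph.Adj u v → (offSquares G M).Adj u v := by
      intro u v huv
      exact ⟨p.toSubgraph.adj_sub huv, fun h => absurd huv h.2⟩
    have hconn := p.toSubgraph_connected
    haveI : Nonempty V := ⟨a⟩
    refine ⟨fun u v => ?_⟩
    have hr := hconn.preconnected ⟨u, hmem u⟩ ⟨v, hmem v⟩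
    let φ : p.toSubgraph.coe →g offSquares G M :=
      { toFun := fun x => x.1
        map_rel' := fun {x y} hxy => hle _ _ hxy }
    exact hr.map φ

theorem ham_iff [Fintype V] [DecidableEq V] (hc : ∀ v, (G.neighborSet v).ncard = 3) :
    G.IsHamiltonian ↔ ∃ M, PerfectMatching G M ∧ (offSquares G M).Connected :=
  ⟨matching_of_ham hc, fun ⟨M, hM, h⟩ => ham_of_offSquares hc M hM h⟩

end Vale.Agent.P039.Sw
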