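import Vale.Agent.P039.H753.S.Cut
import Vale.Agent.P039.H753.S.Match

/-! Two-colourings of the faces with an acyclic monochromatic part. -/

namespace Vale.Agent.P039.Sw

open Vale.Agent.P039
open SimpleGraph

variable {V : Type*} {G : SimpleGraph V}

theorem ncard_out (G : SimpleGraph V) (v : V) :
    ({d : G.Dart | d.fst = v}).ncard = (G.neighborSet v).ncard := by
  have h1 : G.neighborSet v = (fun d : G.Dart => d.snd) '' {d : G.Dart | d.fst = v} := by
    ext u
    constructor
    · intro h
      exact ⟨⟨(v, u), h⟩, rfl, rfl⟩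
    · rintro ⟨d, hd, rfl⟩
      have h := d.adj
      have hd' : d.fst = v := hd
      rw [hd'] at h
      exact h
  rw [h1, Set.InjOn.ncard_image]
  intro d hd e he h
  have hd' : d.fst = v := hd
  have he' : e.fst = v := he
  apply SimpleGraph.Dart.ext
  exact Prod.ext (hd'.trans he'.symm) h

section Rot

variable [Fintype V] (R : Rotation G) (hcub : ∀ v, (G.neighborSet v).ncard = 3)

theorem fst_of_sameCycle {d e : G.Dart} (h : R.rot.SameCycle d e) : e.fst = d.fst := by
  obtain ⟨n, hn⟩ := Equiv.Perm.SameCycle.exists_nat_pow_eq h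
  rw [← hn]
  clear hn
  induction n with
  | zero => rfl
  | succ n ih => rw [pow_succ', Equiv.Perm.mul_apply, R.fst_rot, ih]

theorem out_eq (d : G.Dart) : {e | R.rot.SameCycle d e} = {e : G.Dart | e.fst = d.fst} := by
  ext e
  exact ⟨fun h => fst_of_sameCycle R h, fun h => R.cyclic d e (Eq.symm h)⟩

include hcub

theorem rot_period (d : G.Dart) : Function.minimalPeriod R.rot d = 3 := by
  rw [← cycle_ncard, out_eq, ncard_out, hcub]

theorem rot3 (d : G.Dart) : R.rot (R.rot (R.rot d)) = d := by
  have h := Function.iterate_minimalPeriod (f := R.rot) (x := d)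
  rw [rot_period R hcub] at h
  exact h

theorem rot_ne (d : G.Dart) : R.rot d ≠ d := by
  intro h
  have h1 : Function.minimalPeriod R.rot d = 1 := Function.minimalPeriod_eq_one_iff_isFixedPt.2 h
  rw [rot_period R hcub] at h1
  exact absurd h1 (by decide)

theorem out_cases {d e : G.Dart} (h : e.fst = d.fst) :
    e = d ∨ e = R.rot d ∨ e = R.rot (R.rot d) := by
  have h1 : e ∈ {e | R.rot.SameCycle d e} := by rw [out_eq]; exact h
  rw [cycle_eq_image, rot_period R hcub] at h1
  obtain ⟨n, hn, rfl⟩ := h1
  have hn' : n < 3 := hn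
  interval_cases n
  · exact Or.inl rfl
  · exact Or.inr (Or.inl rfl)
  · exact Or.inr (Or.inr rfl)

omit [Fintype V] in
theorem exists_out (v : V) : ∃ d : G.Dart, d.fst = v := by
  have h : (G.neighborSet v).Nonempty := by
    apply Set.nonempty_of_ncard_ne_zero
    rw [hcub]; decide
  obtain ⟨u, hu⟩ := h
  exact ⟨⟨(v, u), hu⟩, rfl⟩

omit [Fintype V] hcub in
theorem side_rot (d : G.Dart) : side R (R.rot d) = side R d.symm := by
  have := R.faceOf_rot_symm d.symm
  rw [SimpleGraph.Dart.symm_symm] at this
  exact this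

/-- A face of size four is bounded by a 4-cycle. -/
theorem onSquare_of_size {d : G.Dart} (h : size R (side R d) = 4) :
    OnSquare G d.fst d.snd := by
  have h1 : Function.minimalPeriod R.facePerm d = 4 := by
    rw [← cycle_ncard, ← h]
    unfold size
    congr 1
    ext e
    constructor
    · intro h
      exact (Quotient.sound h).symm
    · intro h
      exact Quotient.exact (Eq.symm h)
  have h2 : R.facePerm (R.facePerm (R.facePerm (R.facePerm d))) = d := by
    have h := Function.iterate_minimalPeriod (f := R.facePerm) (x := d)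
    rw [h1] at h
    exact h
  have key : ∀ e : G.Dart, e.fst ≠ (R.facePerm e).snd := by
    intro e he
    have h3 : R.facePerm e = e.symm := by
      apply SimpleGraph.Dart.ext
      exact Prod.ext (R.fst_facePerm e) he.symm
    exact rot_ne R hcub _ h3
  refine ⟨(R.facePerm d).snd, (R.facePerm (R.facePerm d)).snd, ?_, ?_, ?_, key d, ?_⟩
  · have := (R.facePerm d).adj
    rw [R.fst_facePerm] at this
    exact this
  · have := (R.facePerm (R.facePerm d)).adj
    rw [R.fst_facePerm] at this
    exact this
  · have := (R.facePerm (R.facePerm (R.facePerm d))).adj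
    rw [R.fst_facePerm] at this
    have h3 : (R.facePerm (R.facePerm (R.facePerm d))).snd = d.fst := by
      rw [← R.fst_facePerm, h2]
    rw [h3] at this
    exact this
  · have := key (R.facePerm d)
    rw [R.fst_facePerm] at this
    exact this

end Rot

/-- The two sides of the dart both belong to `S` or both do not. -/
def MonoDart (R : Rotation G) (S : Set R.Face) (d : G.Dart) : Prop :=
  side R d ∈ S ↔ side R d.symm ∈ S

theorem MonoDart.symm {R : Rotation G} {S : Set R.Face} {d : G.Dart} (h : MonoDart R S d) :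
    MonoDart R S d.symm := by
  unfold MonoDart at *
  rw [SimpleGraph.Dart.symm_symm]
  exact h.symm

/-- The edges whose two sides both belong to `S` or both do not. -/
def monoMatching (R : Rotation G) (S : Set R.Face) : SimpleGraph V where
  Adj u v := ∃ d : G.Dart, d.fst = u ∧ d.snd = v ∧ MonoDart R S d
  symm := ⟨fun _ _ ⟨d, h1, h2, h3⟩ => ⟨d.symm, h2, h1, h3.symm⟩⟩
  loopless := ⟨fun v ⟨d, h1, h2, _⟩ => d.fst_ne_snd (h1.trans h2.symm)⟩

theorem three_cases (A B C : Prop) (h1 : A ∨ B ∨ C) (h2 : ¬A ∨ ¬B ∨ ¬C) :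
    ((A ↔ B) ∧ ¬(B ↔ C) ∧ ¬(C ↔ A)) ∨ (¬(A ↔ B) ∧ (B ↔ C) ∧ ¬(C ↔ A)) ∨
      (¬(A ↔ B) ∧ ¬(B ↔ C) ∧ (C ↔ A)) := by
  by_cases hA : A <;> by_cases hB : B <;> by_cases hC : C <;> simp_all

theorem monoMatching_perfect [Fintype V] (R : Rotation G)
    (hcub : ∀ v, (G.neighborSet v).ncard = 3) (S : Set R.Face)
    (hS : ∀ v, (∃ f ∈ S, OnFace R v f) ∧ ∃ f ∉ S, OnFace R v f) :
    PerfectMatching G (monoMatching R S) := by
  refine ⟨?_, fun v => ?_⟩
  · rintro u v ⟨d, rfl, rfl, -⟩
    exact d.adj
  · obtain ⟨d, hd⟩ := exists_out hcub v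
    have e1 : side R (R.rot d) = side R d.symm := side_rot R d
    have e2 : side R (R.rot (R.rot d)) = side R (R.rot d).symm := side_rot R _
    have e3 : side R d = side R (R.rot (R.rot d)).symm := by
      rw [← side_rot, rot3 R hcub]
    have f1 : (R.rot d).fst = v := (R.fst_rot d).trans hd
    have f2 : (R.rot (R.rot d)).fst = v := (R.fst_rot _).trans f1
    have hone : side R d ∈ S ∨ side R (R.rot d) ∈ S ∨ side R (R.rot (R.rot d)) ∈ S := by
      obtain ⟨f, hf, e, he, rfl⟩ := (hS v).1
      rcases out_cases R hcub (he.trans hd.symm) with rfl | rfl | rfl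
      · exact Or.inl hf
      · exact Or.inr (Or.inl hf)
      · exact Or.inr (Or.inr hf)
    have htwo : side R d ∉ S ∨ side R (R.rot d) ∉ S ∨ side R (R.rot (R.rot d)) ∉ S := by
      obtain ⟨f, hf, e, he, rfl⟩ := (hS v).2
      rcases out_cases R hcub (he.trans hd.symm) with rfl | rfl | rfl
      · exact Or.inl hf
      · exact Or.inr (Or.inl hf)
      · exact Or.inr (Or.inr hf)
    have m0 : MonoDart R S d ↔ (side R d ∈ S ↔ side R (R.rot d) ∈ S) := by
      unfold MonoDart; rw [e1]
    have m1 : MonoDart R S (R.rot d) ↔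
        (side R (R.rot d) ∈ S ↔ side R (R.rot (R.rot d)) ∈ S) := by
      unfold MonoDart; rw [e2]
    have m2 : MonoDart R S (R.rot (R.rot d)) ↔
        (side R (R.rot (R.rot d)) ∈ S ↔ side R d ∈ S) := by
      unfold MonoDart; rw [← e3]
    have huniq : ∃ e : G.Dart, e.fst = v ∧ MonoDart R S e ∧
        ∀ e' : G.Dart, e'.fst = v → MonoDart R S e' → e' = e := by
      rcases three_cases _ _ _ hone htwo with h | h | h <;>
        rw [← m0, ← m1, ← m2] at h
      · refine ⟨d, hd, h.1, fun e' he' hm => ?_⟩
        rcases out_cases R hcub (he'.trans hd.symm) with rfl | rfl | rfl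
        · rfl
        · exact absurd hm h.2.1
        · exact absurd hm h.2.2
      · refine ⟨R.rot d, f1, h.2.1, fun e' he' hm => ?_⟩
        rcases out_cases R hcub (he'.trans hd.symm) with rfl | rfl | rfl
        · exact absurd hm h.1
        · rfl
        · exact absurd hm h.2.2
      · refine ⟨R.rot (R.rot d), f2, h.2.2, fun e' he' hm => ?_⟩
        rcases out_cases R hcub (he'.trans hd.symm) with rfl | rfl | rfl
        · exact absurd hm h.1
        · exact absurd hm h.2.1
        · rfl
    obtain ⟨e, he, hm, hu⟩ := huniq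
    refine ⟨e.snd, ⟨e, he, rfl, hm⟩, ?_⟩
    rintro w ⟨e', he', rfl, hm'⟩
    rw [hu e' he' hm']

theorem faceMat_dot [Fintype V] (R : Rotation G) (x : V → ZMod 2) (z : R.Face → ZMod 2) :
    ∑ e : G.edgeSet, (faceMat R).transpose.mulVec z e * (vertMat G).mulVec x e = 0 := by
  have h := faceMat_vertMat R x
  have h1 : dotProduct z ((faceMat R).mulVec ((vertMat G).mulVec x)) = 0 := by
    rw [h]; simp
  rw [Matrix.dotProduct_mulVec, ← Matrix.mulVec_transpose] at h1
  exact h1

theorem ham_of_forall [Fintype V] [DecidableEq V] (R : Rotation G)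
    (hcub : ∀ v, (G.neighborSet v).ncard = 3) (h3 : ThreeConnected G)
    (hE : Fintype.card V + Fintype.card R.Face = Fintype.card G.edgeSet + 2)
    (S : Set R.Face) (hS : ∀ v, (∃ f ∈ S, OnFace R v f) ∧ ∃ f ∉ S, OnFace R v f)
    (hac : ∀ x : V → ZMod 2,
      (∀ d : G.Dart, x d.fst ≠ x d.snd → (mono R S).Adj (side R d) (side R d.symm)) →
      ∀ d : G.Dart, x d.fst = x d.snd) : G.IsHamiltonian := by
  classical
  have hM := monoMatching_perfect R hcub S hS
  refine ham_of_offSquares hcub (monoMatching R S) hM ?_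
  set K := offSquares G (monoMatching R S) with hK
  haveI : Nonempty V := (connected_three h3).nonempty
  refine ⟨fun a b => ?_⟩
  by_contra hab
  let x : V → ZMod 2 := fun v => if K.Reachable a v then 1 else 0
  have hx : ∀ d : G.Dart, x d.fst ≠ x d.snd →
      (mono R S).Adj (side R d) (side R d.symm) := by
    intro d hd
    have hnK : ¬ K.Adj d.fst d.snd := by
      intro hadj
      apply hd
      have : K.Reachable a d.fst ↔ K.Reachable a d.snd :=
        ⟨fun h => h.trans hadj.reachable, fun h => h.trans hadj.reachable.symm⟩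
      simp only [x, this]
    have hMd : (monoMatching R S).Adj d.fst d.snd ∧ ¬ OnSquare G d.fst d.snd := by
      by_contra hcon
      apply hnK
      refine ⟨d.adj, fun h => ?_⟩
      by_contra h2
      exact hcon ⟨h, h2⟩
    obtain ⟨⟨e, he1, he2, he3⟩, hns⟩ := hMd
    have hed : e = d := by
      apply SimpleGraph.Dart.ext
      exact Prod.ext he1 he2
    rw [hed] at he3
    refine ⟨⟨sides_ne R hcub h3 hE d, ?_, ?_, d, rfl, rfl⟩, he3⟩
    · intro h
      exact hns (onSquare_of_size R hcub h)
    · intro h
      have h4 := onSquare_of_size R hcub (d := d.symm) h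
      apply hns
      obtain ⟨p, q, a1, a2, a3, a4, a5⟩ := h4
      exact ⟨q, p, a3.symm, a2.symm, a1.symm, a5, a4⟩
  have hcon := hac x hx
  have h0 : ∀ u v (_ : G.Walk u v), x u = x v := by
    intro u v w
    induction w with
    | nil => rfl
    | @cons u v' v h p ih =>
      rw [← ih]
      exact hcon ⟨(u, v'), h⟩
  have h1 : x a = x b := by
    obtain ⟨w⟩ := preconnected_three h3 a b
    exact h0 _ _ w
  have h2 : x a = 1 := if_pos (Reachable.refl a)
  have h4 : x b = 0 := if_neg hab
  rw [h2, h4] at h1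
  exact absurd h1 (by decide)

/-- A cut whose edges, as far as they have a side in `T`, are edges of the acyclic graph `H` has
no edge in `H`. -/
theorem kill [Fintype V] (R : Rotation G)
    (hcub : ∀ v, (G.neighborSet v).ncard = 3) (h3 : ThreeConnected G)
    (hE : Fintype.card V + Fintype.card R.Face = Fintype.card G.edgeSet + 2)
    (H : SimpleGraph R.Face) (hH : H.IsAcyclic) (T : Set R.Face)
    (hT : ∀ f g, H.Adj f g → f ∈ T) (x : V → ZMod 2)
    (hx : ∀ d : G.Dart, x d.fst ≠ x d.snd →
      H.Adj (side R d) (side R d.symm) ∨ (side R d ∉ T ∧ side R d.symm ∉ T))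
    (d0 : G.Dart) (hd0 : x d0.fst ≠ x d0.snd) : ¬ H.Adj (side R d0) (side R d0.symm) := by
  classical
  intro hadj0
  have hbr := (isAcyclic_iff_forall_adj_isBridge.1 hH) hadj0
  rw [isBridge_iff] at hbr
  set H' := H \ fromEdgeSet {s(side R d0, side R d0.symm)} with hH'
  let z : R.Face → ZMod 2 := fun f => if H'.Reachable (side R d0) f then 1 else 0
  have hreachT : ∀ f, H'.Reachable (side R d0) f → f ∈ T := by
    intro f hf
    rw [reachable_iff_reflTransGen] at hf
    rcases hf.cases_tail with h | ⟨g, -, hg⟩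
    · rw [h]; exact hT _ _ hadj0
    · exact hT _ _ (show H.Adj f g from (show H'.Adj g f from hg).1.symm)
  have hsum := faceMat_dot R x z
  rw [Finset.sum_eq_single (edgeOf d0)] at hsum
  · rw [faceMat_transpose_mulVec, vertMat_mulVec] at hsum
    have z1 : z (R.faceOf d0) = 1 := if_pos (Reachable.refl _)
    have z2 : z (R.faceOf d0.symm) = 0 := if_neg hbr
    rw [z1, z2, add_zero, one_mul] at hsum
    have h5 := zmod2_add_self (x d0.snd)
    exact hd0 (add_right_cancel (hsum.trans h5.symm))
  · intro e _ he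
    obtain ⟨d, rfl⟩ := edgeOf_surj e
    rw [faceMat_transpose_mulVec, vertMat_mulVec]
    by_cases hd : x d.fst = x d.snd
    · rw [hd, zmod2_add_self, mul_zero]
    · have hz : z (R.faceOf d) = z (R.faceOf d.symm) := by
        rcases hx d hd with hadj | ⟨ht1, ht2⟩
        · have hHadj : H'.Adj (R.faceOf d) (R.faceOf d.symm) := by
            rw [hH', sdiff_adj]
            refine ⟨hadj, fun h => ?_⟩
            rw [fromEdgeSet_adj, Set.mem_singleton_iff, Sym2.eq_iff] at h
            rcases h.1 with ⟨h1, h2⟩ | ⟨h1, h2⟩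
            · exact he (dual_simple' R hcub h3 hE d d0 h1 h2)
            · apply he
              rw [← edgeOf_symm d0]
              apply dual_simple' R hcub h3 hE d d0.symm h1
              rw [SimpleGraph.Dart.symm_symm]
              exact h2
          have : H'.Reachable (side R d0) (R.faceOf d) ↔
              H'.Reachable (side R d0) (R.faceOf d.symm) :=
            ⟨fun h => h.trans hHadj.reachable, fun h => h.trans hHadj.reachable.symm⟩
          simp only [z, this]
        · have w1 : z (R.faceOf d) = 0 := if_neg (fun h => ht1 (hreachT _ h))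
          have w2 : z (R.faceOf d.symm) = 0 := if_neg (fun h => ht2 (hreachT _ h))
          rw [w1, w2]
      rw [hz, zmod2_add_self, zero_mul]
  · intro h
    exact absurd (Finset.mem_univ _) h

theorem ham_of_mono [Fintype V] [DecidableEq V] (R : Rotation G)
    (hcub : ∀ v, (G.neighborSet v).ncard = 3) (h3 : ThreeConnected G)
    (hE : Fintype.card V + Fintype.card R.Face = Fintype.card G.edgeSet + 2)
    (S : Set R.Face) (hS : ∀ v, (∃ f ∈ S, OnFace R v f) ∧ ∃ f ∉ S, OnFace R v f)
    (hac : (mono R S).IsAcyclic) : G.IsHamiltonian := by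
  refine ham_of_forall R hcub h3 hE S hS (fun x hx d => ?_)
  by_contra hd
  exact kill R hcub h3 hE (mono R S) hac Set.univ (fun _ _ _ => Set.mem_univ _) x
    (fun e he => Or.inl (hx e he)) d hd (hx d hd)

/-- A cut that crosses the boundary of a face does so at two edges at least. -/
theorem two_changes [Fintype V] (R : Rotation G)
    (hcub : ∀ v, (G.neighborSet v).ncard = 3) (h3 : ThreeConnected G)
    (hE : Fintype.card V + Fintype.card R.Face = Fintype.card G.edgeSet + 2)
    (x : V → ZMod 2) (d0 : G.Dart) (hd0 : x d0.fst ≠ x d0.snd) :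
    ∃ d1 : G.Dart, side R d1 = side R d0 ∧ x d1.fst ≠ x d1.snd ∧ d1 ≠ d0 ∧
      side R d1.symm ≠ side R d0.symm := by
  classical
  obtain ⟨d1, h1, h2, h4⟩ : ∃ d1 : G.Dart, side R d1 = side R d0 ∧ x d1.fst ≠ x d1.snd ∧
      d1 ≠ d0 := by
    by_contra hcon
    push Not at hcon
    have h := congrFun (faceMat_vertMat R x) (R.faceOf d0)
    rw [faceMat_mulVec, Finset.sum_eq_single d0] at h
    · rw [if_pos rfl, vertMat_mulVec] at h
      have h' : x d0.fst + x d0.snd = 0 := h
      have h5 := zmod2_add_self (x d0.snd)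
      exact hd0 (add_right_cancel (h'.trans h5.symm))
    · intro d _ hd
      split_ifs with h6
      · rw [vertMat_mulVec]
        by_cases h7 : x d.fst = x d.snd
        · rw [h7]; exact zmod2_add_self _
        · exact absurd (hcon d h6 h7) hd
      · rfl
    · intro h; exact absurd (Finset.mem_univ _) h
  refine ⟨d1, h1, h2, h4, fun h5 => ?_⟩
  have h6 := dual_simple' R hcub h3 hE d1 d0 h1 h5
  rcases (edgeOf_eq_iff _ _).1 h6 with h7 | h7
  · exact h4 h7
  · rw [h7] at h1
    exact sides_ne R hcub h3 hE d0 h1.symm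

end Vale.Agent.P039.Sw
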