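import Vale.Agent.P039.H753.S.Plane

/-! One split colour class. -/

namespace Vale.Agent.P039.Sw

open Vale.Agent.P039
open SimpleGraph

variable {V : Type*} {G : SimpleGraph V}

section Colours

variable [Fintype V] (R : Rotation G) (hcub : ∀ v, (G.neighborSet v).ncard = 3)
  {c : R.Face → Fin 3} (hc : Proper R c)
include hcub hc

/-- All three colours appear at each vertex. -/
theorem exists_colour (v : V) (i : Fin 3) : ∃ f, c f = i ∧ OnFace R v f := by
  obtain ⟨d, hd⟩ := exists_out hcub v
  have e1 : side R (R.rot d) = side R d.symm := side_rot R d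
  have e2 : side R (R.rot (R.rot d)) = side R (R.rot d).symm := side_rot R _
  have e3 : side R d = side R (R.rot (R.rot d)).symm := by
    rw [← side_rot, rot3 R hcub]
  have f1 : (R.rot d).fst = v := (R.fst_rot d).trans hd
  have f2 : (R.rot (R.rot d)).fst = v := (R.fst_rot _).trans f1
  have c0 := hc d
  have c1 := hc (R.rot d)
  have c2 := hc (R.rot (R.rot d))
  rw [← e1] at c0
  rw [← e2] at c1
  rw [← e3] at c2
  have : i = c (side R d) ∨ i = c (side R (R.rot d)) ∨ i = c (side R (R.rot (R.rot d))) := by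
    revert c0 c1 c2
    generalize c (side R d) = p
    generalize c (side R (R.rot d)) = q
    generalize c (side R (R.rot (R.rot d))) = r
    revert p q r i
    decide
  rcases this with h | h | h
  · exact ⟨_, h.symm, d, hd, rfl⟩
  · exact ⟨_, h.symm, _, f1, rfl⟩
  · exact ⟨_, h.symm, _, f2, rfl⟩

omit [Fintype V] hcub in
theorem colour_ne_of_bigAdj {f g : R.Face} (h : BigAdj R f g) : c f ≠ c g := by
  obtain ⟨_, _, _, d, rfl, rfl⟩ := h
  exact hc d

end Colours

theorem mem_face_iff [Fintype V] (R : Rotation G) {d e : G.Dart} :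
    side R e = side R d ↔ ∃ n < size R (side R d), e = (R.facePerm ^ n) d := by
  have hset : {e | R.facePerm.SameCycle d e} = {e | side R e = side R d} := by
    ext e
    constructor
    · intro h
      exact (Quotient.sound h).symm
    · intro h
      exact Quotient.exact (Eq.symm h)
  have h1 : size R (side R d) = Function.minimalPeriod R.facePerm d := by
    rw [← cycle_ncard]
    unfold size
    rw [hset]
  constructor
  · intro h
    have h2 : e ∈ {e | R.facePerm.SameCycle d e} := by rw [hset]; exact h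
    rw [cycle_eq_image] at h2
    obtain ⟨n, hn, rfl⟩ := h2
    refine ⟨n, ?_, ?_⟩
    · rw [h1]; exact hn
    · change R.facePerm^[n] d = _
      rw [Equiv.Perm.iterate_eq_pow]
  · rintro ⟨n, -, rfl⟩
    have : ∀ n : ℕ, side R ((R.facePerm ^ n) d) = side R d := by
      intro n
      induction n with
      | zero => rfl
      | succ n ih =>
        rw [pow_succ', Equiv.Perm.mul_apply]
        exact (R.faceOf_facePerm _).trans ih
    exact this n

theorem pow_fst_succ (R : Rotation G) (d : G.Dart) (n : ℕ) :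
    ((R.facePerm ^ (n + 1)) d).fst = ((R.facePerm ^ n) d).snd := by
  rw [pow_succ', Equiv.Perm.mul_apply, R.fst_facePerm]

/-- faces of colour 0 with at most one big neighbour of colour 1 -/
def pend (R : Rotation G) (c : R.Face → Fin 3) : Set R.Face :=
  {f | c f = 0 ∧ (bigNbrs R c 1 f).ncard ≤ 1}

/-- alternating faces of colour 0 -/
def alts (R : Rotation G) (c : R.Face → Fin 3) : Set R.Face :=
  {f | c f = 0 ∧ ¬ (bigNbrs R c 1 f).ncard ≤ 1 ∧ ¬ (bigNbrs R c 2 f).ncard ≤ 1 ∧
    Alternating R c f}

def Hot (R : Rotation G) (c : R.Face → Fin 3) (red D : Set R.Face) (f : R.Face) : Prop :=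
  c f = 0 ∧ (¬ Simple R c f ∧ f ∈ red ∨ f ∈ D)

def forestG (R : Rotation G) (c : R.Face → Fin 3) (red D : Set R.Face) : SimpleGraph R.Face :=
  SimpleGraph.fromRel fun f g => Hot R c red D f ∧ BigAdj R f g ∧ c g = 1

def inS (R : Rotation G) (c : R.Face → Fin 3) (red D : Set R.Face) : Set R.Face :=
  {f | c f = 1 ∨ (c f = 0 ∧ f ∈ pend R c) ∨ Hot R c red D f}

theorem forestG_mem {R : Rotation G} {c : R.Face → Fin 3} {red D : Set R.Face} {f g : R.Face}
    (h : (forestG R c red D).Adj f g) : f ∈ inS R c red D := by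
  unfold forestG at h
  rw [fromRel_adj] at h
  rcases h.2 with ⟨h1, -, -⟩ | ⟨-, -, h1⟩
  · exact Or.inr (Or.inr h1)
  · exact Or.inl h1

theorem forestG_empty_le {R : Rotation G} {c : R.Face → Fin 3} {red : Set R.Face} :
    forestG R c red ∅ ≤ stars R c red := by
  intro f g h
  unfold forestG at h
  unfold stars
  rw [fromRel_adj] at h ⊢
  refine ⟨h.1, ?_⟩
  rcases h.2 with ⟨⟨h0, h1⟩, h2, h3⟩ | ⟨⟨h0, h1⟩, h2, h3⟩
  · rcases h1 with h1 | h1
    · exact Or.inl ⟨h0, h1.1, h2, Or.inl ⟨h1.2, h3⟩⟩
    · exact absurd h1 (Set.notMem_empty _)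
  · rcases h1 with h1 | h1
    · exact Or.inr ⟨h0, h1.1, h2, Or.inl ⟨h1.2, h3⟩⟩
    · exact absurd h1 (Set.notMem_empty _)

/-- Two faces of the same colour class across a face that meets a cut. -/
theorem not_ncard_le_one [Fintype V] (R : Rotation G)
    (hcub : ∀ v, (G.neighborSet v).ncard = 3) (h3 : ThreeConnected G)
    (hE : Fintype.card V + Fintype.card R.Face = Fintype.card G.edgeSet + 2)
    (c : R.Face → Fin 3) (i : Fin 3) (x : V → ZMod 2) (d : G.Dart) (hd : x d.fst ≠ x d.snd)
    (hbig : ∀ e : G.Dart, side R e = side R d → x e.fst ≠ x e.snd →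
      BigAdj R (side R e) (side R e.symm) ∧ c (side R e.symm) = i) :
    ¬ (bigNbrs R c i (side R d)).ncard ≤ 1 := by
  obtain ⟨e, he, hx, -, hne⟩ := two_changes R hcub h3 hE x d hd
  intro hle
  have hfin : (bigNbrs R c i (side R d)).Finite := Set.toFinite _
  rw [Set.ncard_le_one_iff hfin] at hle
  apply hne
  apply hle
  · have := hbig e he hx
    rw [he] at this
    exact this
  · exact hbig d rfl hd

/-- Adding a vertex joined to two vertices in different components. -/
theorem acyclic_add {α : Type*} (H : SimpleGraph α) (hH : H.IsAcyclic) {u v w : α}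
    (hu : ∀ a, ¬ H.Adj u a) (huv : u ≠ v) (huw : u ≠ w) (hvw : ¬ H.Reachable v w) :
    ((H ⊔ edge u v) ⊔ edge u w).IsAcyclic := by
  have hiso : ∀ a, H.Reachable u a → a = u := by
    intro a ha
    rw [reachable_iff_reflTransGen] at ha
    rcases ha.cases_head with h | ⟨b, hb, -⟩
    · exact h.symm
    · exact absurd hb (hu b)
  have h1 : (H ⊔ edge u v).IsAcyclic :=
    IsAcyclic.sup_edge_of_not_reachable (fun h => huv (hiso _ h).symm) hH
  refine IsAcyclic.sup_edge_of_not_reachable ?_ h1
  intro h
  have key : ∀ a, (H ⊔ edge u v).Reachable u a → a = u ∨ H.Reachable v a := by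
    intro a ha
    rw [reachable_iff_reflTransGen] at ha
    induction ha with
    | refl => exact Or.inl rfl
    | @tail b d _ hbd ih =>
      rw [sup_adj, edge_adj] at hbd
      rcases ih with rfl | ih
      · rcases hbd with hbd | ⟨hbd, -⟩
        · exact absurd hbd (hu _)
        · rcases hbd with ⟨-, rfl⟩ | ⟨h1, rfl⟩
          · exact Or.inr (Reachable.refl _)
          · exact Or.inl rfl
      · rcases hbd with hbd | ⟨hbd, -⟩
        · exact Or.inr (ih.trans hbd.reachable)
        · rcases hbd with ⟨rfl, rfl⟩ | ⟨rfl, rfl⟩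
          · exact Or.inr (Reachable.refl _)
          · exact Or.inl rfl
  rcases key w h with h | h
  · exact huw h.symm
  · exact hvw h

end Vale.Agent.P039.Sw
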